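import Vale.Agent.P287Z.O.L.Twist

/-!
# Two models of `Coh X` have equivalent derived categories (P287 port of P294-L)
-/

set_option linter.unusedSectionVars false

open CategoryTheory Limits

universe w₁ w₂ v₀ v₁ v₂ u₀ u₁ u₂

namespace Vale.Agent.P287Z.O.H599

open L

section general

variable {A : Type u₀} [Category.{v₀} A] (M : MorphismProperty A)
  {C₁ : Type u₁} [Category.{v₁} C₁] [Abelian C₁]
  {C₂ : Type u₂} [Category.{v₂} C₂] [Abelian C₂]
  (L₁ : A ⥤ C₁) (L₂ : A ⥤ C₂) [L₁.IsLocalization M] [L₂.IsLocalization M]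

/-- two localizations are equivalent -/
noncomputable def eqv : C₁ ≌ C₂ := Localization.uniq L₁ L₂ M

/-- compatibility of the equivalence with the localization functors -/
noncomputable def eqvComp : L₁ ⋙ (eqv M L₁ L₂).functor ≅ L₂ :=
  Localization.compUniqFunctor L₁ L₂ M

instance : PreservesFiniteLimits (eqv M L₁ L₂).functor :=
  PreservesLimitsOfSize.preservesFiniteLimits.{0, 0} _

instance : PreservesFiniteColimits (eqv M L₁ L₂).functor :=
  PreservesColimitsOfSize.preservesFiniteColimits.{0, 0} _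

instance : PreservesFiniteLimits (eqv M L₁ L₂).inverse :=
  PreservesLimitsOfSize.preservesFiniteLimits.{0, 0} _

instance : PreservesFiniteColimits (eqv M L₁ L₂).inverse :=
  PreservesColimitsOfSize.preservesFiniteColimits.{0, 0} _

instance : (eqv M L₁ L₂).functor.Additive := by
  have := preservesBinaryBiproducts_of_preservesBinaryProducts (eqv M L₁ L₂).functor
  exact Functor.additive_of_preservesBinaryBiproducts _

instance : (eqv M L₁ L₂).inverse.Additive := by
  have := preservesBinaryBiproducts_of_preservesBinaryProducts (eqv M L₁ L₂).inverse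
  exact Functor.additive_of_preservesBinaryBiproducts _

instance [Preadditive A] [Linear ℂ A] [Linear ℂ C₁] [Linear ℂ C₂] [L₁.Additive] [L₂.Additive]
    [L₁.Linear ℂ] [L₂.Linear ℂ] : (eqv M L₁ L₂).functor.Linear ℂ := by
  have : Localization.Lifting L₁ M L₂ (eqv M L₁ L₂).functor := ⟨eqvComp M L₁ L₂⟩
  rw [← Localization.functor_linear_iff L₁ M ℂ L₂ (eqv M L₁ L₂).functor]
  infer_instance

variable [HasDerivedCategory.{w₁} C₁] [HasDerivedCategory.{w₂} C₂]

/-- the equivalence of derived categories -/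
noncomputable def DE : DerivedCategory C₁ ⥤ DerivedCategory C₂ :=
  (eqv M L₁ L₂).functor.mapDerivedCategory

/-- the inverse -/
noncomputable def DEi : DerivedCategory C₂ ⥤ DerivedCategory C₁ :=
  (eqv M L₁ L₂).inverse.mapDerivedCategory

noncomputable instance : (DE M L₁ L₂).CommShift ℤ :=
  inferInstanceAs ((eqv M L₁ L₂).functor.mapDerivedCategory.CommShift ℤ)

instance : (DE M L₁ L₂).IsTriangulated :=
  inferInstanceAs ((eqv M L₁ L₂).functor.mapDerivedCategory.IsTriangulated)

instance : (DE M L₁ L₂).Additive := inferInstance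

instance [Preadditive A] [Linear ℂ A] [Linear ℂ C₁] [Linear ℂ C₂] [L₁.Additive] [L₂.Additive]
    [L₁.Linear ℂ] [L₂.Linear ℂ] : (DE M L₁ L₂).Linear ℂ :=
  inferInstanceAs ((eqv M L₁ L₂).functor.mapDerivedCategory.Linear ℂ)

/-- the equivalence of derived categories -/
noncomputable def DEE : DerivedCategory C₁ ≌ DerivedCategory C₂ :=
  CategoryTheory.Equivalence.mk (DE M L₁ L₂) (DEi M L₁ L₂)
    (mapDComp _ _ (𝟭 C₁) (eqv M L₁ L₂).unitIso.symm ≪≫ mapDId _ (Iso.refl _)).symm
    (mapDComp _ _ (𝟭 C₂) (eqv M L₁ L₂).counitIso ≪≫ mapDId _ (Iso.refl _))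

instance : (DE M L₁ L₂).IsEquivalence := inferInstanceAs (DEE M L₁ L₂).functor.IsEquivalence

/-- from complexes in the source to the derived category of the localization -/
noncomputable abbrev QL (L : A ⥤ C₁) [Preadditive A] [L.Additive] :
    CochainComplex A ℤ ⥤ DerivedCategory C₁ :=
  L.mapHomologicalComplex (ComplexShape.up ℤ) ⋙ DerivedCategory.Q

/-- compatibility with `Q π` -/
noncomputable def QLE [Preadditive A] [L₁.Additive] [L₂.Additive] :
    QL L₁ ⋙ DE M L₁ L₂ ≅ QL L₂ :=
  Functor.associator _ _ _ ≪≫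
    Functor.isoWhiskerLeft _ (eqv M L₁ L₂).functor.mapDerivedCategoryFactors ≪≫
    (Functor.associator _ _ _).symm ≪≫
    Functor.isoWhiskerRight (Functor.mapHomologicalComplexCompIso (eqvComp M L₁ L₂) _) _

/-- compatibility with single complexes -/
noncomputable def DEsingle (n : ℤ) :
    (L₁ ⋙ DerivedCategory.singleFunctor C₁ n) ⋙ DE M L₁ L₂ ≅
      L₂ ⋙ DerivedCategory.singleFunctor C₂ n :=
  Functor.associator _ _ _ ≪≫
    Functor.isoWhiskerLeft _ ((eqv M L₁ L₂).functor.mapDerivedCategorySingleFunctor n) ≪≫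
    (Functor.associator _ _ _).symm ≪≫ Functor.isoWhiskerRight (eqvComp M L₁ L₂) _

theorem DE_bounded {X : DerivedCategory C₁}
    (hX : (DerivedCategory.TStructure.t (C := C₁)).bounded X) :
    (DerivedCategory.TStructure.t (C := C₂)).bounded ((DE M L₁ L₂).obj X) :=
  mapD_bounded (eqv M L₁ L₂).functor hX

theorem DEi_bounded {X : DerivedCategory C₂}
    (hX : (DerivedCategory.TStructure.t (C := C₂)).bounded X) :
    (DerivedCategory.TStructure.t (C := C₁)).bounded ((DEi M L₁ L₂).obj X) :=
  mapD_bounded (eqv M L₁ L₂).inverse hX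

/-- the bounded derived category -/
abbrev Db (C : Type u₁) [Category.{v₁} C] [Abelian C] [HasDerivedCategory.{w₁} C] : Type _ :=
  (DerivedCategory.TStructure.t (C := C)).bounded.FullSubcategory

/-- the equivalence of bounded derived categories -/
noncomputable def DbE : Db C₁ ⥤ Db C₂ :=
  (DerivedCategory.TStructure.t (C := C₂)).bounded.lift
    ((DerivedCategory.TStructure.t (C := C₁)).bounded.ι ⋙ DE M L₁ L₂)
    fun X => DE_bounded M L₁ L₂ X.property

noncomputable instance : (DbE M L₁ L₂).CommShift ℤ :=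
  inferInstanceAs (((DerivedCategory.TStructure.t (C := C₂)).bounded.lift
    ((DerivedCategory.TStructure.t (C := C₁)).bounded.ι ⋙ DE M L₁ L₂) _).CommShift ℤ)

set_option backward.isDefEq.respectTransparency false in
instance : (DbE M L₁ L₂).IsTriangulated := by
  dsimp only [DbE]
  infer_instance

instance : (DbE M L₁ L₂).Full := by
  dsimp only [DbE]
  infer_instance

instance : (DbE M L₁ L₂).Faithful := by
  dsimp only [DbE]
  infer_instance

instance : (DbE M L₁ L₂).EssSurj where
  mem_essImage Y := ⟨⟨(DEi M L₁ L₂).obj Y.obj, DEi_bounded M L₁ L₂ Y.property⟩,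
    ⟨(DerivedCategory.TStructure.t (C := C₂)).bounded.isoMk ((DEE M L₁ L₂).counitIso.app Y.obj)⟩⟩

instance : (DbE M L₁ L₂).IsEquivalence where

instance : (DbE M L₁ L₂).Additive where
  map_add {X Y f g} := by
    apply ObjectProperty.hom_ext
    exact (DE M L₁ L₂).map_add

instance [Preadditive A] [Linear ℂ A] [Linear ℂ C₁] [Linear ℂ C₂] [L₁.Additive] [L₂.Additive]
    [L₁.Linear ℂ] [L₂.Linear ℂ] : (DbE M L₁ L₂).Linear ℂ where
  map_smul {X Y} f c := by
    apply ObjectProperty.hom_ext
    exact (DE M L₁ L₂).map_smul c f.hom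

theorem DbE_obj (X : Db C₁) : ((DbE M L₁ L₂).obj X).obj = (DE M L₁ L₂).obj X.obj := rfl

end general

end Vale.Agent.P287Z.O.H599
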