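import Vale.Agent.P287Z.O.H409.Tri

/-!
# Abstract fully faithfulness (P287 port of P294-L, block B7)

`q : K ⥤ D` triangulated, triangles `L → T → G → L[1]`, `L' → T' → G' → L'[1]` in `K` with
`q T = q T' = 0`, `q` bijective on `Hom(G, L'[1])`, `Hom(G, T'[n]) = Hom(T, L'[n]) = 0`,
`Hom(L[1], G') = 0`.
-/

open CategoryTheory Limits Pretriangulated Category

universe v₁ v₂ u₁ u₂

namespace Vale.Agent.P287Z.O.H599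

open H409

variable {K : Type u₁} {D : Type u₂} [Category.{v₁} K] [Category.{v₂} D] [Preadditive K]
  [Preadditive D] [HasZeroObject K] [HasZeroObject D] [HasShift K ℤ] [HasShift D ℤ]
  [∀ n : ℤ, (shiftFunctor K n).Additive] [∀ n : ℤ, (shiftFunctor D n).Additive]
  [Pretriangulated K] [Pretriangulated D] (q : K ⥤ D) [q.CommShift ℤ] [q.IsTriangulated]
  {L T G L' T' G' : K} {i : L ⟶ T} {p : T ⟶ G} {δ : G ⟶ L⟦(1 : ℤ)⟧}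
  {i' : L' ⟶ T'} {p' : T' ⟶ G'} {δ' : G' ⟶ L'⟦(1 : ℤ)⟧}

include q in
/-- the connecting map of the image triangle is an isomorphism -/
theorem isIso_con (h1 : Triangle.mk i p δ ∈ distTriang K) (hT : IsZero (q.obj T)) :
    IsIso (q.map δ ≫ (q.commShiftIso (1 : ℤ)).hom.app L) :=
  (Triangle.isZero₂_iff_isIso₃ _ (q.map_distinguished _ h1)).1 hT

/-- surjectivity -/
theorem abs_full (h1 : Triangle.mk i p δ ∈ distTriang K) (h2 : Triangle.mk i' p' δ' ∈ distTriang K)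
    (hT : IsZero (q.obj T)) (hs : Sur q G (L'⟦(1 : ℤ)⟧))
    (g0 : ∀ f : G ⟶ T'⟦(1 : ℤ)⟧, f = 0) (g1 : ∀ f : T ⟶ L'⟦(1 : ℤ)⟧, f = 0)
    (g2 : ∀ f : L⟦(1 : ℤ)⟧ ⟶ G', f = 0) (a : q.obj L ⟶ q.obj L') :
    ∃ φ : T ⟶ T', ∀ (l : L ⟶ L') (γ : G ⟶ G'), p ≫ γ = φ ≫ p' → γ ≫ δ' = δ ≫ l⟦(1 : ℤ)⟧' →
      q.map l = a := by
  have hiso := isIso_con q h1 hT
  obtain ⟨β, hβ⟩ := hs ((q.map δ ≫ (q.commShiftIso (1 : ℤ)).hom.app L) ≫ a⟦(1 : ℤ)⟧' ≫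
    (q.commShiftIso (1 : ℤ)).inv.app L')
  obtain ⟨γ, hγ⟩ : ∃ γ : G ⟶ G', β = γ ≫ δ' :=
    Triangle.coyoneda_exact₁ _ h2 β (g0 _)
  obtain ⟨φ, hφ⟩ : ∃ φ : T ⟶ T', p ≫ γ = φ ≫ p' :=
    Triangle.coyoneda_exact₃ _ h2 (p ≫ γ) (g1 _)
  refine ⟨φ, fun l γ' hp hd => ?_⟩
  have e1 : γ = γ' := by
    obtain ⟨w, hw⟩ : ∃ w : L⟦(1 : ℤ)⟧ ⟶ G', γ - γ' = δ ≫ w :=
      Triangle.yoneda_exact₃ _ h1 (γ - γ') (by
        change p ≫ (γ - γ') = 0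
        rw [Preadditive.comp_sub, hφ, hp, sub_self])
    rw [g2 w, comp_zero] at hw
    exact sub_eq_zero.1 hw
  have e2 : q.map β = q.map δ ≫ q.map (l⟦(1 : ℤ)⟧') := by
    rw [hγ, e1, hd, q.map_comp]
  have e3 : q.map (l⟦(1 : ℤ)⟧') ≫ (q.commShiftIso (1 : ℤ)).hom.app L' =
      (q.commShiftIso (1 : ℤ)).hom.app L ≫ (q.map l)⟦(1 : ℤ)⟧' :=
    (q.commShiftIso (1 : ℤ)).hom.naturality l
  have e4 : (q.map δ ≫ (q.commShiftIso (1 : ℤ)).hom.app L) ≫ a⟦(1 : ℤ)⟧' =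
      (q.map δ ≫ (q.commShiftIso (1 : ℤ)).hom.app L) ≫ (q.map l)⟦(1 : ℤ)⟧' := by
    have e5 : q.map β ≫ (q.commShiftIso (1 : ℤ)).hom.app L' =
        (q.map δ ≫ (q.commShiftIso (1 : ℤ)).hom.app L) ≫ a⟦(1 : ℤ)⟧' := by
      rw [hβ]
      simp only [assoc, Iso.inv_hom_id_app]
      erw [comp_id]
    rw [← e5, e2, assoc, e3, assoc]
  have e6 := (cancel_epi _).1 e4
  exact ((shiftFunctor D (1 : ℤ)).map_injective e6).symm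

/-- injectivity -/
theorem abs_faithful (h1 : Triangle.mk i p δ ∈ distTriang K)
    (h2 : Triangle.mk i' p' δ' ∈ distTriang K) (hi : Inj q G (L'⟦(1 : ℤ)⟧))
    (g0 : ∀ f : G ⟶ T', f = 0) (g1 : ∀ f : T ⟶ L', f = 0)
    {l : L ⟶ L'} {φ : T ⟶ T'} {γ : G ⟶ G'} (hp : p ≫ γ = φ ≫ p')
    (hd : γ ≫ δ' = δ ≫ l⟦(1 : ℤ)⟧') (hl : q.map l = 0) : φ = 0 := by
  have e3 : q.map (l⟦(1 : ℤ)⟧') ≫ (q.commShiftIso (1 : ℤ)).hom.app L' =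
      (q.commShiftIso (1 : ℤ)).hom.app L ≫ (q.map l)⟦(1 : ℤ)⟧' :=
    (q.commShiftIso (1 : ℤ)).hom.naturality l
  have e4 : q.map (l⟦(1 : ℤ)⟧') = 0 := by
    rw [hl, Functor.map_zero, comp_zero] at e3
    exact (cancel_mono ((q.commShiftIso (1 : ℤ)).hom.app L')).1 (e3.trans zero_comp.symm)
  have e5 : γ ≫ δ' = 0 := hi _ (by rw [hd, q.map_comp, e4, comp_zero])
  obtain ⟨w, hw⟩ : ∃ w : G ⟶ T', γ = w ≫ p' := Triangle.coyoneda_exact₃ _ h2 γ e5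
  have e6 : γ = 0 := by rw [hw, g0 w, zero_comp]
  obtain ⟨x, hx⟩ : ∃ x : T ⟶ L', φ = x ≫ i' := Triangle.coyoneda_exact₂ _ h2 φ (by
    change φ ≫ p' = 0
    rw [← hp, e6, comp_zero])
  rw [hx, g1 x, zero_comp]

/-- zero maps -/
theorem abs_null (h1 : Triangle.mk i p δ ∈ distTriang K) (hT : IsZero (q.obj T))
    (g2 : ∀ f : L⟦(1 : ℤ)⟧ ⟶ G', f = 0) {l : L ⟶ L'} {φ : T ⟶ T'} {γ : G ⟶ G'}
    (hp : p ≫ γ = φ ≫ p') (hd : γ ≫ δ' = δ ≫ l⟦(1 : ℤ)⟧') (hφ : φ = 0) : q.map l = 0 := by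
  have hiso := isIso_con q h1 hT
  obtain ⟨w, hw⟩ : ∃ w : L⟦(1 : ℤ)⟧ ⟶ G', γ = δ ≫ w :=
    Triangle.yoneda_exact₃ _ h1 γ (by
      change p ≫ γ = 0
      rw [hp, hφ, zero_comp])
  rw [g2 w, comp_zero] at hw
  rw [hw, zero_comp] at hd
  have e3 : q.map (l⟦(1 : ℤ)⟧') ≫ (q.commShiftIso (1 : ℤ)).hom.app L' =
      (q.commShiftIso (1 : ℤ)).hom.app L ≫ (q.map l)⟦(1 : ℤ)⟧' :=
    (q.commShiftIso (1 : ℤ)).hom.naturality l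
  have e4 : (q.map δ ≫ (q.commShiftIso (1 : ℤ)).hom.app L) ≫ (q.map l)⟦(1 : ℤ)⟧' = 0 := by
    rw [assoc, ← e3, ← assoc, ← q.map_comp, ← hd, Functor.map_zero, zero_comp]
  have e5 : (q.map l)⟦(1 : ℤ)⟧' = 0 := by
    rw [← cancel_epi (q.map δ ≫ (q.commShiftIso (1 : ℤ)).hom.app L), e4, comp_zero]
  exact (shiftFunctor D (1 : ℤ)).map_injective (e5.trans (Functor.map_zero _ _ _).symm)

end Vale.Agent.P287Z.O.H599
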