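import Vale.Agent.P287Z.O.H409.FF

/-!
# Comparison of `Hom` groups of homotopy categories along an additive functor (P287 port of P294-L, block B7)
-/

open CategoryTheory Limits Pretriangulated Category

universe w v₁ v₂ u₁ u₂

namespace Vale.Agent.P287Z.O.H599

open H409

section lift

variable {C : Type u₁} [Category.{v₁} C] [Preadditive C] {B : Type u₂} [Category.{v₂} B]
  [Preadditive B] (F : C ⥤ B) [F.Additive] {X Y : CochainComplex C ℤ}
  (h : ∀ i j, Function.Bijective (fun f : X.X i ⟶ Y.X j => F.map f))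

include h

theorem lift_chain (g : (F.mapHomologicalComplex (ComplexShape.up ℤ)).obj X ⟶
      (F.mapHomologicalComplex (ComplexShape.up ℤ)).obj Y) :
    ∃ f : X ⟶ Y, (F.mapHomologicalComplex (ComplexShape.up ℤ)).map f = g := by
  choose e he using fun i => (h i i).2 (g.f i)
  refine ⟨{ f := e, comm' := fun i j _ => ?_ }, ?_⟩
  · apply (h i j).1
    change F.map (e i ≫ Y.d i j) = F.map (X.d i j ≫ e j)
    rw [F.map_comp, F.map_comp]
    have h1 : F.map (e i) = g.f i := he i
    have h2 : F.map (e j) = g.f j := he j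
    rw [h1, h2]
    exact g.comm i j
  · ext i
    exact he i

theorem lift_htpy {f : X ⟶ Y}
    (H : Homotopy ((F.mapHomologicalComplex (ComplexShape.up ℤ)).map f) 0) :
    Nonempty (Homotopy f 0) := by
  choose e he using fun i j => (h i j).2 (H.hom i j)
  refine ⟨{
    hom := e
    zero := fun i j hij => (h i j).1 (by
      change F.map (e i j) = F.map 0
      rw [F.map_zero]
      exact (he i j).trans (H.zero i j hij))
    comm := fun i => (h i i).1 ?_ }⟩
  change F.map _ = F.map _
  have h1 := H.comm i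
  have h2 : ∀ i j, F.map (e i j) = H.hom i j := he
  rw [dNext_eq _ (show (ComplexShape.up ℤ).Rel i (i + 1) from rfl),
    prevD_eq _ (show (ComplexShape.up ℤ).Rel (i - 1) i from by simp)] at h1 ⊢
  rw [F.map_add, F.map_add, F.map_comp, F.map_comp, h2, h2, HomologicalComplex.zero_f,
    Functor.map_zero]
  exact h1

theorem inj_mapHtpy [HasZeroObject C] : Inj (F.mapHomotopyCategory (ComplexShape.up ℤ))
    ((HomotopyCategory.quotient C (ComplexShape.up ℤ)).obj X)
    ((HomotopyCategory.quotient C (ComplexShape.up ℤ)).obj Y) := by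
  intro f hf
  obtain ⟨f, rfl⟩ := (HomotopyCategory.quotient C (ComplexShape.up ℤ)).map_surjective f
  rw [Functor.mapHomotopyCategory_map] at hf
  obtain ⟨H⟩ := lift_htpy F h (f := f) (HomotopyCategory.homotopyOfEq _ _ (by
    rw [Functor.map_zero]
    exact hf))
  exact (HomotopyCategory.eq_of_homotopy _ _ H).trans (Functor.map_zero _ _ _)

theorem sur_mapHtpy [HasZeroObject C] : Sur (F.mapHomotopyCategory (ComplexShape.up ℤ))
    ((HomotopyCategory.quotient C (ComplexShape.up ℤ)).obj X)
    ((HomotopyCategory.quotient C (ComplexShape.up ℤ)).obj Y) := by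
  intro g
  obtain ⟨g, rfl⟩ := (HomotopyCategory.quotient B (ComplexShape.up ℤ)).map_surjective g
  obtain ⟨f, hf⟩ := lift_chain F h g
  refine ⟨(HomotopyCategory.quotient C (ComplexShape.up ℤ)).map f, ?_⟩
  rw [Functor.mapHomotopyCategory_map, hf]
  rfl

end lift

section comp

variable {K : Type u₁} {D : Type u₂} [Category.{v₁} K] [Category.{v₂} D] [Preadditive K]
  [Preadditive D] {E : Type*} [Category E] [Preadditive E]

theorem inj_comp {F : K ⥤ D} {G : D ⥤ E} {X Y : K} (h : Inj F X Y)
    (h' : Inj G (F.obj X) (F.obj Y)) : Inj (F ⋙ G) X Y := fun f hf => h f (h' _ hf)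

theorem sur_comp {F : K ⥤ D} {G : D ⥤ E} {X Y : K} (h : Sur F X Y)
    (h' : Sur G (F.obj X) (F.obj Y)) : Sur (F ⋙ G) X Y := fun g => by
  obtain ⟨f, hf⟩ := h' g
  obtain ⟨f', hf'⟩ := h f
  exact ⟨f', by rw [Functor.comp_map, hf', hf]⟩

end comp

section main

variable {C : Type u₁} [Category.{v₁} C] [Preadditive C] [HasZeroObject C] [HasBinaryBiproducts C]
  {B : Type u₂} [Category.{v₂} B] [Abelian B] [HasDerivedCategory.{w} B] (F : C ⥤ B) [F.Additive]

/-- complexes up to homotopy over `C` to the derived category of `B` -/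
noncomputable abbrev qF : HomotopyCategory C (ComplexShape.up ℤ) ⥤ DerivedCategory B :=
  F.mapHomotopyCategory (ComplexShape.up ℤ) ⋙ DerivedCategory.Qh

noncomputable example : (qF F).CommShift ℤ := inferInstance
noncomputable example : (qF F).IsTriangulated := inferInstance

theorem cmp (X Y : CochainComplex C ℤ) (a b : ℤ) (hX : X.IsStrictlyLE a) (hY : Y.IsStrictlyGE b)
    (h : ∀ i j, Function.Bijective (fun f : X.X i ⟶ Y.X j => F.map f))
    (h' : ∀ i j n : ℤ, 0 < n → ∀ f : (DerivedCategory.singleFunctor B 0).obj (F.obj (X.X i)) ⟶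
      ((DerivedCategory.singleFunctor B 0).obj (F.obj (Y.X j)))⟦n⟧, f = 0) (n : ℤ) :
    Inj (qF F) ((HomotopyCategory.quotient C (ComplexShape.up ℤ)).obj X)
      (((HomotopyCategory.quotient C (ComplexShape.up ℤ)).obj Y)⟦n⟧) ∧
    Sur (qF F) ((HomotopyCategory.quotient C (ComplexShape.up ℤ)).obj X)
      (((HomotopyCategory.quotient C (ComplexShape.up ℤ)).obj Y)⟦n⟧) := by
  have e1 := ((HomotopyCategory.quotient C (ComplexShape.up ℤ)).commShiftIso n).app Y
  have hs : ∀ i j, Function.Bijective (fun f : X.X i ⟶ (Y⟦n⟧).X j => F.map f) :=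
    fun i j => h i (j + n)
  have i1 := (inj_mapHtpy F hs).iso (Iso.refl _) e1
  have s1 := (sur_mapHtpy F hs).iso (Iso.refl _) e1
  have hX' : CochainComplex.IsStrictlyLE ((F.mapHomologicalComplex (ComplexShape.up ℤ)).obj X) a :=
    (CochainComplex.isStrictlyLE_iff _ _).2 fun i hi =>
      F.map_isZero (X.isZero_of_isStrictlyLE a i hi)
  have hY' : CochainComplex.IsStrictlyGE ((F.mapHomologicalComplex (ComplexShape.up ℤ)).obj Y) b :=
    (CochainComplex.isStrictlyGE_iff _ _).2 fun i hi =>
      F.map_isZero (Y.isZero_of_isStrictlyGE b i hi)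
  have hf := ffS ((F.mapHomologicalComplex (ComplexShape.up ℤ)).obj X)
    ((F.mapHomologicalComplex (ComplexShape.up ℤ)).obj Y) a b hX' hY' h'
  have e2 := ((F.mapHomotopyCategory (ComplexShape.up ℤ)).commShiftIso n).app
    ((HomotopyCategory.quotient C (ComplexShape.up ℤ)).obj Y)
  exact ⟨inj_comp i1 ((hf.1 n).iso (Iso.refl _) e2.symm),
    sur_comp s1 ((hf.2 n).iso (Iso.refl _) e2.symm)⟩

end main

end Vale.Agent.P287Z.O.H599
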