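import Mathlib

/-!
# Morphisms of degreewise split short exact sequences give morphisms of triangles in the homotopy
category (P287 port of P294-L, block B7)
-/

open CategoryTheory Limits Pretriangulated Category CochainComplex HomologicalComplex

universe v u

namespace Vale.Agent.P287Z.O.H599

variable {C : Type u} [Category.{v} C] [Preadditive C]

/-- the computation -/
theorem dgs_key {T0 G0 L1 T1 G1 L0' T0' G0' L1' T1' : C}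
    {p0 : T0 ⟶ G0} {s0 : G0 ⟶ T0}
    {i1 : L1 ⟶ T1} {p1 : T1 ⟶ G1} {s1 : G1 ⟶ T1} {r1 : T1 ⟶ L1}
    {i0' : L0' ⟶ T0'} {p0' : T0' ⟶ G0'} {s0' : G0' ⟶ T0'} {r0' : T0' ⟶ L0'}
    {i1' : L1' ⟶ T1'} {r1' : T1' ⟶ L1'}
    {dT : T0 ⟶ T1} {dG : G0 ⟶ G1} {dL' : L0' ⟶ L1'} {dT' : T0' ⟶ T1'}
    {t0 : T0 ⟶ T0'} {t1 : T1 ⟶ T1'} {l1 : L1 ⟶ L1'} {g0 : G0 ⟶ G0'}
    (sg0 : s0 ≫ p0 = 𝟙 _) (id1 : r1 ≫ i1 + p1 ≫ s1 = 𝟙 _)
    (id0' : r0' ≫ i0' + p0' ≫ s0' = 𝟙 _) (fr1' : i1' ≫ r1' = 𝟙 _)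
    (hi : i0' ≫ dT' = dL' ≫ i1') (hp : p0 ≫ dG = dT ≫ p1) (ht : t0 ≫ dT' = dT ≫ t1)
    (hl : l1 ≫ i1' = i1 ≫ t1) (hg : p0 ≫ g0 = t0 ≫ p0') :
    g0 ≫ s0' ≫ dT' ≫ r1' =
      dG ≫ s1 ≫ t1 ≫ r1' + (s0 ≫ t0 ≫ r0') ≫ (-dL') + (s0 ≫ dT ≫ r1) ≫ l1 := by
  have e1 : g0 ≫ s0' = s0 ≫ t0 - (s0 ≫ t0 ≫ r0') ≫ i0' := by
    have h1 : p0' ≫ s0' = 𝟙 _ - r0' ≫ i0' := by rw [← id0', add_sub_cancel_left]
    calc g0 ≫ s0' = s0 ≫ (p0 ≫ g0) ≫ s0' := by rw [assoc, reassoc_of% sg0]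
      _ = s0 ≫ t0 ≫ p0' ≫ s0' := by rw [hg, assoc]
      _ = _ := by rw [h1, Preadditive.comp_sub, Preadditive.comp_sub, comp_id, assoc, assoc]
  have e2 : r1 ≫ l1 = t1 ≫ r1' - p1 ≫ s1 ≫ t1 ≫ r1' := by
    have h1 : r1 ≫ i1 = 𝟙 _ - p1 ≫ s1 := by rw [← id1, add_sub_cancel_right]
    calc r1 ≫ l1 = r1 ≫ (l1 ≫ i1') ≫ r1' := by rw [assoc, fr1', comp_id]
      _ = (r1 ≫ i1) ≫ t1 ≫ r1' := by rw [hl]; simp only [assoc]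
      _ = _ := by rw [h1, Preadditive.sub_comp, id_comp]; simp only [assoc]
  have e3 : s0 ≫ dT ≫ p1 = dG := by rw [← hp, reassoc_of% sg0]
  have e4 : g0 ≫ s0' ≫ dT' ≫ r1' = (g0 ≫ s0') ≫ dT' ≫ r1' := by rw [assoc]
  rw [e4, e1, Preadditive.sub_comp]
  simp only [assoc, Preadditive.comp_neg]
  rw [reassoc_of% ht, reassoc_of% hi, fr1', comp_id, e2]
  simp only [Preadditive.comp_sub]
  rw [reassoc_of% e3]
  abel

variable {S S' : ShortComplex (CochainComplex C ℤ)}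
  (σ : ∀ n, (S.map (eval C _ n)).Splitting) (σ' : ∀ n, (S'.map (eval C _ n)).Splitting)

/-- the sections -/
noncomputable def sx (n : ℤ) : S.X₃.X n ⟶ S.X₂.X n := (σ n).s

/-- the retractions -/
noncomputable def rx (n : ℤ) : S.X₂.X n ⟶ S.X₁.X n := (σ n).r

theorem dgs_f (n : ℤ) : (homOfDegreewiseSplit S σ).f n =
    (sx σ n ≫ S.X₂.d n (n + 1) ≫ rx σ (n + 1) : S.X₃.X n ⟶ S.X₁.X (n + 1)) := by
  rw [homOfDegreewiseSplit_f]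
  rfl

/-- the homotopy -/
noncomputable def dgsH (τ : S ⟶ S') (i j : ℤ) : S.X₃.X i ⟶ (S'.X₁⟦(1 : ℤ)⟧).X j :=
  if h : j + 1 = i then
    (sx σ i ≫ τ.τ₂.f i ≫ rx σ' i) ≫ (S'.X₁.XIsoOfEq h.symm).hom else 0

theorem shift_d_aux {A : C} (K : CochainComplex C ℤ) (n : ℤ) (h : n - 1 + 1 = n) (e : A ⟶ K.X n) :
    (e ≫ (K.XIsoOfEq h.symm).hom : A ⟶ (K⟦(1 : ℤ)⟧).X (n - 1)) ≫ (K⟦(1 : ℤ)⟧).d (n - 1) n =
      (e ≫ (-K.d n (n + 1)) : A ⟶ K.X (n + 1)) := by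
  have h3 : (K⟦(1 : ℤ)⟧).d (n - 1) n = -K.d (n - 1 + 1) (n + 1) := by
    rw [CochainComplex.shiftFunctor_obj_d', Int.negOnePow_one, Units.neg_smul, one_smul]
  rw [h3]
  change (e ≫ (K.XIsoOfEq h.symm).hom) ≫ (-K.d (n - 1 + 1) (n + 1)) = e ≫ (-K.d n (n + 1))
  rw [Preadditive.comp_neg, Preadditive.comp_neg, assoc, XIsoOfEq_hom_comp_d]

theorem dgs_htpy (τ : S ⟶ S') : Nonempty (Homotopy
    (τ.τ₃ ≫ homOfDegreewiseSplit S' σ') (homOfDegreewiseSplit S σ ≫ τ.τ₁⟦(1 : ℤ)⟧')) := by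
  refine ⟨{ hom := dgsH σ σ' τ, zero := fun i j h => dif_neg h, comm := fun n => ?_ }⟩
  rw [dNext_eq _ (show (ComplexShape.up ℤ).Rel n (n + 1) from rfl),
    prevD_eq _ (show (ComplexShape.up ℤ).Rel (n - 1) n from by simp)]
  have h1 : dgsH σ σ' τ (n + 1) n = (sx σ (n + 1) ≫ τ.τ₂.f (n + 1) ≫ rx σ' (n + 1) :
      S.X₃.X (n + 1) ⟶ S'.X₁.X (n + 1)) := by
    rw [dgsH, dif_pos rfl, XIsoOfEq_rfl]
    exact (comp_id _)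
  have h2 : dgsH σ σ' τ n (n - 1) ≫ (S'.X₁⟦(1 : ℤ)⟧).d (n - 1) n =
      ((sx σ n ≫ τ.τ₂.f n ≫ rx σ' n) ≫ (-S'.X₁.d n (n + 1)) : S.X₃.X n ⟶ S'.X₁.X (n + 1)) := by
    rw [dgsH, dif_pos (by ring)]
    exact shift_d_aux S'.X₁ n (by ring) _
  rw [h1, h2, HomologicalComplex.comp_f, HomologicalComplex.comp_f, dgs_f, dgs_f]
  have sg0 : sx σ n ≫ S.g.f n = 𝟙 _ := (σ n).s_g
  have id1 : rx σ (n + 1) ≫ S.f.f (n + 1) + S.g.f (n + 1) ≫ sx σ (n + 1) = 𝟙 _ := (σ (n + 1)).id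
  have id0' : rx σ' n ≫ S'.f.f n + S'.g.f n ≫ sx σ' n = 𝟙 _ := (σ' n).id
  have fr1' : S'.f.f (n + 1) ≫ rx σ' (n + 1) = 𝟙 _ := (σ' (n + 1)).f_r
  have hl : τ.τ₁.f (n + 1) ≫ S'.f.f (n + 1) = S.f.f (n + 1) ≫ τ.τ₂.f (n + 1) := by
    rw [← HomologicalComplex.comp_f, ← HomologicalComplex.comp_f, τ.comm₁₂]
  have hg : S.g.f n ≫ τ.τ₃.f n = τ.τ₂.f n ≫ S'.g.f n := by
    rw [← HomologicalComplex.comp_f, ← HomologicalComplex.comp_f, τ.comm₂₃]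
  have := dgs_key sg0 id1 id0' fr1' (S'.f.comm n (n + 1)) (S.g.comm n (n + 1))
    (τ.τ₂.comm n (n + 1)) hl hg
  exact this

variable [HasZeroObject C]

/-- the third square in the homotopy category -/
theorem dgs_comm (τ : S ⟶ S') :
    (HomotopyCategory.quotient C (ComplexShape.up ℤ)).map τ.τ₃ ≫
      (trianglehOfDegreewiseSplit S' σ').mor₃ =
    (trianglehOfDegreewiseSplit S σ).mor₃ ≫
      ((HomotopyCategory.quotient C (ComplexShape.up ℤ)).map τ.τ₁)⟦(1 : ℤ)⟧' := by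
  obtain ⟨h⟩ := dgs_htpy σ σ' τ
  have h1 := HomotopyCategory.eq_of_homotopy _ _ h
  have h2 := ((HomotopyCategory.quotient C (ComplexShape.up ℤ)).commShiftIso
    (1 : ℤ)).hom.naturality τ.τ₁
  change (HomotopyCategory.quotient C (ComplexShape.up ℤ)).map τ.τ₃ ≫
    (HomotopyCategory.quotient C (ComplexShape.up ℤ)).map (homOfDegreewiseSplit S' σ') ≫
      ((HomotopyCategory.quotient C (ComplexShape.up ℤ)).commShiftIso (1 : ℤ)).hom.app S'.X₁ =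
    ((HomotopyCategory.quotient C (ComplexShape.up ℤ)).map (homOfDegreewiseSplit S σ) ≫
      ((HomotopyCategory.quotient C (ComplexShape.up ℤ)).commShiftIso (1 : ℤ)).hom.app S.X₁) ≫
      ((HomotopyCategory.quotient C (ComplexShape.up ℤ)).map τ.τ₁)⟦(1 : ℤ)⟧'
  rw [← assoc, ← Functor.map_comp, h1, Functor.map_comp, assoc, assoc]
  exact congrArg _ h2

end Vale.Agent.P287Z.O.H599
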