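import Vale.Agent.P287Z.O.L.LG
import Vale.Agent.P287Z.O.H599.Abs
import Vale.Agent.P287Z.O.H599.Cmp
import Vale.Agent.P287Z.O.H599.Spl

/-!
# Orlov's functor is full and faithful (P287 port of P294-L, block B7)
-/

set_option linter.unusedSectionVars false

open CategoryTheory Limits Pretriangulated Category CochainComplex HomologicalComplex

namespace Vale.Agent.P287Z.O.H599

open H409 L V

variable {W : MvPolynomial (Fin 6) ℂ} [(grA W).ContainsZero] [(grA W).IsClosedUnderKernels]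
  [(grA W).IsClosedUnderCokernels] [(grA W).IsClosedUnderFiniteProducts] [(tors W).IsSerreClass]
  [FrOK W] {m n : ℕ}

variable (W) in
/-- complexes of graded modules up to homotopy -/
noncomputable abbrev qt : CochainComplex (GA W) ℤ ⥤ HomotopyCategory (GA W) (ComplexShape.up ℤ) :=
  HomotopyCategory.quotient (GA W) (ComplexShape.up ℤ)

/-- the connecting map in the homotopy category -/
noncomputable def cδ (E : GMF W n) : (qt W).obj (TG E 0) ⟶ ((qt W).obj (TL E 0))⟦(1 : ℤ)⟧ :=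
  (trianglehOfDegreewiseSplit (TLG E 0) (TLGσ E 0)).mor₃

theorem cδ_dist (E : GMF W n) : Triangle.mk ((qt W).map (TLι E 0)) ((qt W).map (TGπ E 0)) (cδ E) ∈
    distTriang (HomotopyCategory (GA W) (ComplexShape.up ℤ)) :=
  (HomotopyCategory.distinguished_iff_iso_trianglehOfDegreewiseSplit _).2
    ⟨TLG E 0, TLGσ E 0, ⟨Iso.refl _⟩⟩

theorem cδ_nat {E : GMF W m} {F : GMF W n}
    {f : Matrix (Fin n) (Fin m) (MvPolynomial (Fin 6) ℂ)} (hf : Cl E F f) :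
    (qt W).map (Tf hf (2 * 0 < ·)) ≫ cδ F =
      cδ E ≫ ((qt W).map (Tf hf (· ≤ 2 * 0)))⟦(1 : ℤ)⟧' :=
  dgs_comm (TLGσ E 0) (TLGσ F 0) (TLGmap hf 0)

theorem cp_nat {E : GMF W m} {F : GMF W n}
    {f : Matrix (Fin n) (Fin m) (MvPolynomial (Fin 6) ℂ)} (hf : Cl E F f) :
    (qt W).map (TGπ E 0) ≫ (qt W).map (Tf hf (2 * 0 < ·)) =
      (qt W).map (Tf hf (fun _ => True)) ≫ (qt W).map (TGπ F 0) := by
  rw [← Functor.map_comp, ← Functor.map_comp, TGπ_natural]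

theorem hz1 (h : NullSt' W) (hp : ProjSt W) (E : GMF W m) (F : GMF W n) (k : ℤ)
    (f : (qt W).obj (TG E 0) ⟶ ((qt W).obj (TT F))⟦k⟧) : f = 0 := by
  apply (CategoryTheory.shiftFunctor (HomotopyCategory (GA W) (ComplexShape.up ℤ)) (-k)).map_injective
  rw [Functor.map_zero]
  let e1 := ((qt W).commShiftIso (-k)).app (TG E 0)
  let e2 := (shiftFunctorCompIsoId (HomotopyCategory (GA W) (ComplexShape.up ℤ)) k (-k)
    (by ring)).app ((qt W).obj (TT F))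
  obtain ⟨g, hg⟩ := (qt W).map_surjective (e1.hom ≫ f⟦-k⟧' ≫ e2.hom)
  have h1 := TG_le E 0
  have h2 : CochainComplex.IsStrictlyLE ((TG E 0)⟦-k⟧) (bd E 0 + k) :=
    (TG E 0).isStrictlyLE_shift (bd E 0) (-k) (bd E 0 + k) (by ring)
  obtain ⟨H⟩ := h F ((TG E 0)⟦-k⟧) _ h2 (fun i => hp _) g
  have h3 : e1.hom ≫ f⟦-k⟧' ≫ e2.hom = 0 := by
    rw [← hg]
    exact (HomotopyCategory.eq_of_homotopy _ _ H).trans (Functor.map_zero _ _ _)
  rw [← cancel_mono e2.hom, ← cancel_epi e1.hom, h3, zero_comp, comp_zero]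

theorem hz2 (h : NullSt W) (E : GMF W m) (F : GMF W n) (k : ℤ)
    (f : (qt W).obj (TT E) ⟶ ((qt W).obj (TL F 0))⟦k⟧) : f = 0 := by
  let e1 := ((qt W).commShiftIso k).app (TL F 0)
  obtain ⟨g, hg⟩ := (qt W).map_surjective (f ≫ e1.inv)
  have h1 := TL_ge F 0
  have h2 : CochainComplex.IsStrictlyGE ((TL F 0)⟦k⟧) (-bd F 0 - k) :=
    (TL F 0).isStrictlyGE_shift (-bd F 0) k (-bd F 0 - k) (by ring)
  obtain ⟨H⟩ := h E ((TL F 0)⟦k⟧) _ h2 (fun i => ⟨n, qsel F _ (i + k), ⟨Iso.refl _⟩⟩) g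
  have h3 : f ≫ e1.inv = 0 := by
    rw [← hg]
    exact (HomotopyCategory.eq_of_homotopy _ _ H).trans (Functor.map_zero _ _ _)
  rw [← cancel_mono e1.inv, h3, zero_comp]

theorem hz3 (E : GMF W m) (F : GMF W n) (k : ℤ)
    (f : ((qt W).obj (TL E 0))⟦k⟧ ⟶ (qt W).obj (TG F 0)) : f = 0 := by
  let e1 := ((qt W).commShiftIso k).app (TL E 0)
  obtain ⟨g, hg⟩ := (qt W).map_surjective (e1.hom ≫ f)
  rw [← cancel_epi e1.hom, ← hg, TL_TG_zero E F 0 k g, Functor.map_zero, comp_zero]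

theorem hsep (E : GMF W m) (F : GMF W n) (i j : ℤ) :
    Sep (qsel E (2 * 0 < ·) i) (qsel F (· ≤ 2 * 0) j) := by
  intro a b ha hb
  have h1 := qsel_even ha
  have h2 := qsel_even hb
  have h3 : qsel E (2 * 0 < ·) i a = E.p a - 3 * i := if_pos h1
  have h4 : qsel F (· ≤ 2 * 0) j b = F.p b - 3 * j := if_pos h2
  rw [h3] at ha ⊢
  rw [h4] at hb ⊢
  obtain ⟨r, hr⟩ := ha
  obtain ⟨s, hs⟩ := hb
  omega

theorem hcmp (hh : HomSt W) (hx : ExtSt W) (E : GMF W m) (F : GMF W n) (k : ℤ) :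
    Inj (qF (piA W)) ((qt W).obj (TG E 0)) (((qt W).obj (TL F 0))⟦k⟧) ∧
      Sur (qF (piA W)) ((qt W).obj (TG E 0)) (((qt W).obj (TL F 0))⟦k⟧) :=
  cmp (piA W) (TG E 0) (TL F 0) _ _ (TG_le E 0) (TL_ge F 0)
    (fun i j => hh _ _ (hsep E F i j)) (fun i j k hk => hx _ _ (hsep E F i j) k hk) k

theorem hzero (hA : AcySt W) (E : GMF W n) : IsZero ((qF (piA W)).obj ((qt W).obj (TT E))) :=
  isZero_QPi_TT hA E

/-- **Fullness.** -/
theorem fullSt (hp : ProjSt W) (hA : AcySt W) (hn : NullSt W) (hn' : NullSt' W) (he : EisSt W)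
    (hh : HomSt W) (hx : ExtSt W) : FullSt W := by
  intro m n E F g
  obtain ⟨φ, hφ⟩ := abs_full (qF (piA W)) (cδ_dist E) (cδ_dist F) (hzero hA E)
    (hcmp hh hx E F 1).2 (hz1 hn' hp E F 1) (hz2 hn E F 1) (hz3 E F 1) g
  obtain ⟨φ, rfl⟩ := (qt W).map_surjective φ
  obtain ⟨f, hf, ⟨H⟩⟩ := (he E F).1 φ
  refine ⟨f, hf, hφ _ _ ?_ (cδ_nat hf)⟩
  rw [cp_nat hf]
  exact congrArg (· ≫ (qt W).map (TGπ F 0)) (HomotopyCategory.eq_of_homotopy _ _ H).symm

theorem hz1' (h : NullSt' W) (hp : ProjSt W) (E : GMF W m) (F : GMF W n)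
    (f : (qt W).obj (TG E 0) ⟶ (qt W).obj (TT F)) : f = 0 := by
  have e := (shiftFunctorZero (HomotopyCategory (GA W) (ComplexShape.up ℤ)) ℤ).app
    ((qt W).obj (TT F))
  rw [← cancel_mono e.inv, zero_comp]
  exact hz1 h hp E F 0 _

theorem hz2' (h : NullSt W) (E : GMF W m) (F : GMF W n)
    (f : (qt W).obj (TT E) ⟶ (qt W).obj (TL F 0)) : f = 0 := by
  have e := (shiftFunctorZero (HomotopyCategory (GA W) (ComplexShape.up ℤ)) ℤ).app
    ((qt W).obj (TL F 0))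
  rw [← cancel_mono e.inv, zero_comp]
  exact hz2 h E F 0 _

/-- **Faithfulness.** -/
theorem faithSt (hp : ProjSt W) (hA : AcySt W) (hn : NullSt W) (hn' : NullSt' W) (he : EisSt W)
    (hh : HomSt W) (hx : ExtSt W) : FaithSt W := by
  intro m n E F f hf
  rw [← (he E F).2 f hf]
  constructor
  · intro h
    have h1 := abs_faithful (qF (piA W)) (cδ_dist E) (cδ_dist F) (hcmp hh hx E F 1).1
      (hz1' hn' hp E F) (hz2' hn E F) (cp_nat hf) (cδ_nat hf) h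
    exact ⟨HomotopyCategory.homotopyOfEq _ _ (h1.trans (Functor.map_zero _ _ _).symm)⟩
  · rintro ⟨H⟩
    exact abs_null (qF (piA W)) (cδ_dist E) (hzero hA E) (hz3 E F 1) (cp_nat hf) (cδ_nat hf)
      ((HomotopyCategory.eq_of_homotopy _ _ H).trans (Functor.map_zero _ _ _))

end Vale.Agent.P287Z.O.H599
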